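import Vale.Agent.P144M56.Dom
import Vale.Agent.P144M56.DefsD
import Vale.Agent.P144M13.Dist
import Vale.Agent.P144P.PlaneC

/-!
The spin field in a domain with free boundary condition: moments and laws.
-/

set_option linter.all false

namespace Vale.Agent.P144M56

open Filter Topology MeasureTheory Vale.Agent.P144 Vale.Agent.P144Z Vale.Agent.P144F58
  Vale.Agent.P144W

variable {J lam β : ℝ} {V : Finset Site → ℝ}

theorem bd_zero {Z : ℝ} {μ₀ : Measure Config} {C : Pts → ℝ} {D : Set ℂ} (hJ : 0 < J)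
    (h₀ : IsPlaneState J 0 (fun _ => 0) (Kc / J) μ₀) (hM : Mom μ₀ 1 C) (hK : 0 ≤ Kc / J)
    (ho : IsOpen D) (hb : Bornology.IsBounded D) (hZ : 0 ≤ Z) {n : ℕ} (hn : 0 < n)
    {f : Fin n → ℂ → ℝ} (hf : ∀ i, Test (f i) ∧ tsupport (f i) ⊆ D) {ε : ℝ} (hε : 0 < ε) :
    ∀ᶠ a in 𝓝[>] (0 : ℝ), |Z ^ n * crit J D none a fun σ => ∏ i, smear a (f i) σ| ≤
      Z ^ n * (∫ x : Fin n → ℂ, (∏ i, |f i (x i)|) * C ⟨n, 0, x, ![], ![]⟩) + ε := by
  have hT := fun i => (hf i).1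
  have hA := fun i => test_abs (hT i)
  have hμ₀ := U1.zero_state hJ h₀
  have F0 := sepm hJ hμ₀ (fam_self h₀) (loc_self μ₀)
  have t := (hM n hn _ hA).2.const_mul (Z ^ n)
  simp only [one_pow, one_mul] at t
  obtain ⟨H₀, η₀, e0⟩ : ∃ (H : ℝ → Config → ℝ) (η : Config), ∀ a,
      crit J D none a = expect (Kc / J) (H a) (disc D a) η := ⟨_, _, fun _ => rfl⟩
  filter_upwards [t.eventually (eventually_le_nhds (lt_add_of_pos_right _ hε)), self_mem_nhdsWithin,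
    dom_bd U1.pot_zero (cf_zero hJ) hK hμ₀ ho hb fun i => (hf i).2] with a h1 ha h2
  refine le_trans ?_ h1
  rw [abs_mul, abs_of_nonneg (pow_nonneg hZ n)]
  refine mul_le_mul_of_nonneg_left ?_ (pow_nonneg hZ n)
  rw [(fub_test F0 ha hA).2, e0, (fub_expect _ _ _ _ a hT).2]
  rw [← Real.norm_eq_abs]
  refine norm_integral_le_of_norm_le (fub_test F0 ha hA).1 (Eventually.of_forall fun x => ?_)
  rw [← e0]
  exact h2 x

theorem field_dom {Zσ Zε Z : ℝ} {μ : Measure Config} {D : Set ℂ}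
    (hJ : 0 < J) (hV : IsPotential V) (hc : ∀ A, 0 ≤ U1.cf J lam V A) (hβ : 0 ≤ β)
    (hμ : IsTorusState J lam V β μ) (hZσ : 0 < Zσ)
    (hP : ∀ E₀, PlaneFam J 0 (fun _ => 0) (Kc / J) E₀ →
      LocDiff Set.univ E₀ (famOf μ) Zσ Zε ∧ Identity Set.univ E₀ (famOf μ) Zσ Zε)
    (ho : IsOpen D) (hb : Bornology.IsBounded D) (hZ : 0 ≤ Z)
    (h : ∀ (n : ℕ) (x : Fin n → ℂ), Good D ⟨n, 0, x, ![], ![]⟩ → Tendsto (fun a =>
      corr a (inDom J lam V β D none a) ⟨n, 0, x, ![], ![]⟩ -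
        Z ^ n * corr a (crit J D none a) ⟨n, 0, x, ![], ![]⟩) (𝓝[>] 0) (𝓝 0)) :
    MomDiff D (crit J D none) (inDom J lam V β D none) Z ∧
      LawDiff D (crit J D none) (inDom J lam V β D none) Z ∧
      DistDiff ⟨D, ho⟩ (crit J D none) (inDom J lam V β D none) Z := by
  obtain ⟨C, hC⟩ := P144P.plane_C hJ
  obtain ⟨μ₀, h₀, -⟩ := H436.free_plane hJ
  have hE := fam_self h₀
  have h0 := spin_mom0 hJ (fun p hp => (hC p hp).1) fun p hp => (hC p hp).2.2.1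
  have hK : 0 ≤ Kc / J := div_nonneg (div_nonneg (Real.log_nonneg (by
    linarith [Real.sqrt_nonneg 2])) zero_le_two) hJ.le
  have hM := mom_dom hJ hV hc hβ hμ h₀ (hP _ hE).1 hZσ (fun p hp => (hC p hp).1)
    (fun p hp => (hP _ hE).2 p hp _ ((hC p hp).1 _ hE)) (fun p hp => (hC p hp).2.2.1) hK ho hb hZ h
  have hd : ∀ (n : ℕ) (f : Fin n → ℂ → ℝ), (∀ i, Test (f i) ∧ tsupport (f i) ⊆ D) →
      Tendsto (fun a => inDom J lam V β D none a (fun σ => ∏ i, smear a (f i) σ) -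
        Z ^ n * crit J D none a fun σ => ∏ i, smear a (f i) σ) (𝓝[>] 0) (𝓝 0) := fun n f hf => by
    refine (hM n f hf).congr fun a => ?_
    congr 1
    simp only [Finset.prod_mul_distrib, Finset.prod_const, Finset.card_univ, Fintype.card_fin]
    simp only [crit, inDom, Option.map_none, gibbs, expect_mul]
  refine ⟨hM, fun k f hf F => P144M13.law_of_mom (fun a i => smear a (f i)) Z
    (fun n i => Z ^ n * ∫ x : Fin n → ℂ, (∏ j, |f (i j) (x j)|) * C ⟨n, 0, x, ![], ![]⟩)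
    (fun n _ i => hd n _ fun j => hf (i j))
    (fun n hn i ε hε => bd_zero hJ h₀ (h0 _ h₀) hK ho hb hZ hn (fun j => hf (i j)) hε)
    (fun t => C13.growth hJ h0 (fun i => test_abs (hf i).1) t Z) F, ?_⟩
  have hf : ∀ f : P153D.Te ⟨D, ho⟩, Test f ∧ tsupport f ⊆ D := fun f =>
    ⟨P144M13.test f, f.tsupport_subset⟩
  exact P144M13.dist_of_mom ⟨D, ho⟩ Z
    (fun f n => Z ^ n * ∫ x : Fin n → ℂ, (∏ j, |f (x j)|) * C ⟨n, 0, x, ![], ![]⟩)
    (fun f n _ => hd n _ fun _ => hf f)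
    (fun f n hn ε hε => bd_zero hJ h₀ (h0 _ h₀) hK ho hb hZ hn (fun _ => hf f) hε)
    fun f t => C13.growth hJ h0 (fun _ : Fin 1 => test_abs (hf f).1) t Z

end Vale.Agent.P144M56
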