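import Vale.Agent.P144F58.Defs

/-!
The smeared spin field in a domain.
-/

namespace Vale.Agent.P144M56

open Filter Topology Vale.Agent.P144 Vale.Agent.P144F58

/-- All mixed moments of the field, smeared with test functions supported inside `D`, are
asymptotically those of `Z` times the field in `E₀`. -/
def MomDiff (D : Set ℂ) (E₀ E : Fam) (Z : ℝ) : Prop :=
  ∀ (n : ℕ) (f : Fin n → ℂ → ℝ), (∀ i, Test (f i) ∧ tsupport (f i) ⊆ D) →
    Tendsto (fun a => E a (fun σ => ∏ i, smear a (f i) σ) -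
      E₀ a fun σ => ∏ i, Z * smear a (f i) σ) (𝓝[>] 0) (𝓝 0)

/-- The same for the joint laws. -/
def LawDiff (D : Set ℂ) (E₀ E : Fam) (Z : ℝ) : Prop :=
  ∀ (k : ℕ) (f : Fin k → ℂ → ℝ), (∀ i, Test (f i) ∧ tsupport (f i) ⊆ D) →
    ∀ F : BoundedContinuousFunction (EuclideanSpace ℝ (Fin k)) ℝ,
      Tendsto (fun a => E a (fun σ => F (WithLp.toLp 2 fun i => smear a (f i) σ)) -
        E₀ a fun σ => F (WithLp.toLp 2 fun i => Z * smear a (f i) σ)) (𝓝[>] 0) (𝓝 0)

end Vale.Agent.P144M56
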