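import Vale.Agent.P144.H436.Gks
import Vale.Agent.P144Z.U1.Lim

/-!
Ferromagnetic couplings: the free correlations of a finite set are below those of the plane state.
-/

set_option linter.all false

namespace Vale.Agent.P144M56

open Finset Filter Topology MeasureTheory Vale.Agent.P144 Vale.Agent.P144.H436 Vale.Agent.P144Z
  Vale.Agent.P144Z.U1

section
variable {ι : Type} [Fintype ι] [DecidableEq ι] {H f g : (ι → Bool) → ℝ}

theorem gin_pos (hH : Gin H) (hf : Gin f) : 0 ≤ ∑ s, f s * Real.exp (H s) := by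
  have h1 := MP.nonneg nnm2 (hf.mul hH.exp).1
  rw [sum_pairs (fun s t => f s * Real.exp (H s) + f t * Real.exp (H t))] at h1
  simp only [sum_add_distrib, sum_const, card_univ, ← smul_sum, nsmul_eq_mul, ← mul_sum] at h1
  have hc : (0 : ℝ) < (Fintype.card (ι → Bool) : ℝ) := by exact_mod_cast Fintype.card_pos
  by_contra hneg
  have := mul_neg_of_pos_of_neg hc (not_le.1 hneg)
  linarith

theorem gin_cov (hH : Gin H) (hf : Gin f) (hg : Gin g) :
    (∑ s, f s * Real.exp (H s)) * (∑ s, g s * Real.exp (H s)) ≤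
      (∑ s, f s * g s * Real.exp (H s)) * ∑ s, Real.exp (H s) := by
  have hw : MP phi2 (fun p : ι → Bool × Bool =>
      Real.exp (H fun i => (p i).1) * Real.exp (H fun i => (p i).2)) :=
    (MP.exp hH.1).congr fun p => Real.exp_add _ _
  have h1 := MP.nonneg nnm2 ((hf.2.mul hg.2).mul hw)
  rw [sum_pairs (fun s t => (f s - f t) * (g s - g t) * (Real.exp (H s) * Real.exp (H t)))] at h1
  have e : ∀ s t, (f s - f t) * (g s - g t) * (Real.exp (H s) * Real.exp (H t))
      = (f s * g s * Real.exp (H s)) * Real.exp (H t) + Real.exp (H s) * (f t * g t * Real.exp (H t))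
        - (f s * Real.exp (H s)) * (g t * Real.exp (H t))
        - (g s * Real.exp (H s)) * (f t * Real.exp (H t)) := by
    intro s t; ring
  simp only [e, sum_sub_distrib, sum_add_distrib, ← mul_sum, ← sum_mul] at h1
  linarith

theorem gin_mono (hH : Gin H) (hf : Gin f) (hg : Gin g) :
    (∑ s, f s * Real.exp (H s)) / (∑ s, Real.exp (H s)) ≤
      (∑ s, f s * Real.exp (H s + g s)) / ∑ s, Real.exp (H s + g s) := by
  have := gin_cov hH hf hg.exp
  rw [div_le_div_iff₀ (sum_pos (fun _ _ => Real.exp_pos _) univ_nonempty)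
    (sum_pos (fun _ _ => Real.exp_pos _) univ_nonempty)]
  simp only [Real.exp_add]
  simp only [mul_comm (Real.exp (g _)), mul_right_comm _ (Real.exp (g _))] at this
  simpa only [mul_assoc] using this

end

variable {J lam β : ℝ} {V : Finset Site → ℝ}

theorem free_le (hV : IsPotential V) (hc : ∀ A, 0 ≤ cf J lam V A) (hβ : 0 ≤ β) (Λ : Finset Site)
    (M : ℕ) (hi : Set.InjOn (red (M + 1)) Λ) {n : ℕ} (w : Fin n → Site) (hw : ∀ i, w i ∈ Λ) :
    0 ≤ gibbs J lam V β none Λ (fun σ => ∏ i, sp (σ (w i))) ∧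
      gibbs J lam V β none Λ (fun σ => ∏ i, sp (σ (w i))) ≤
        gibbsT J lam V β M fun σ => ∏ i, sp (σ (w i)) := by
  classical
  have en : ∀ σ, energy J lam V (fun A => A ⊆ Λ) σ = -∑ x ∈ Λ, ∑ A ∈ shapes V,
      if sh x A ⊆ Λ then cf J lam V A * ∏ y ∈ A, sp (σ (y + x)) else 0 := fun σ => by
    rw [energy_eq hV J lam _ Λ fun x A hA h => h (mem_sh.2 (by simpa using ((mem_shapes hV).1 hA).1.1))]
    congr!
  let tm : TSite (M + 1) → Finset Site → (TSite (M + 1) → Bool) → ℝ := fun u A s =>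
    cf J lam V A * ∏ y ∈ A, sp (s (red (M + 1) y + u))
  have gt : ∀ u A, Gin (tm u A) := fun u A =>
    (Gin.const (hc A)).mul (Gin.prod _ fun y _ => Gin.spin _)
  let P : TSite (M + 1) → Finset Site → Prop := fun u A => ∃ x ∈ Λ, red (M + 1) x = u ∧ sh x A ⊆ Λ
  have gi : ∀ (p : Prop) [Decidable p] u A, Gin fun s => if p then tm u A s else 0 := by
    intro p _ u A
    split_ifs
    · exact gt u A
    · exact Gin.const le_rfl
  let H : (TSite (M + 1) → Bool) → ℝ := fun s =>
    β * ∑ u, ∑ A ∈ shapes V, if P u A then tm u A s else 0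
  let G : (TSite (M + 1) → Bool) → ℝ := fun s =>
    β * ∑ u, ∑ A ∈ shapes V, if ¬ P u A then tm u A s else 0
  have hH : Gin H := (Gin.const hβ).mul (Gin.sum _ fun u _ => Gin.sum _ fun A _ => gi _ u A)
  have hG : Gin G := (Gin.const hβ).mul (Gin.sum _ fun u _ => Gin.sum _ fun A _ => gi _ u A)
  have hF : Gin fun s : TSite (M + 1) → Bool => ∏ i, sp (per (M + 1) s (w i)) :=
    Gin.prod _ fun i _ => Gin.spin _
  have e1 : ∀ s, -β * tE J lam V (M + 1) s = H s + G s := fun s => by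
    simp only [H, G, tE, ← mul_add, ← sum_add_distrib, neg_mul_neg]
    congr 1
    refine sum_congr rfl fun u _ => sum_congr rfl fun A _ => ?_
    by_cases h : P u A <;> simp [h, tm]
  have e2 : ∀ s, H s = -β * energy J lam V (fun A => A ⊆ Λ) (per (M + 1) s) := fun s => by
    rw [en, neg_mul_neg]
    simp only [H]
    congr 1
    rw [← sum_subset (subset_univ (Λ.image (red (M + 1)))), sum_image hi]
    · refine sum_congr rfl fun x hx => sum_congr rfl fun A hA => ?_
      simp only [per_apply, red_add]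
      refine if_congr ⟨?_, fun h => ⟨x, hx, rfl, h⟩⟩ rfl rfl
      rintro ⟨z, hz, e, h⟩
      rwa [← hi hz hx e]
    · intro u _ hu
      exact sum_eq_zero fun A _ => if_neg fun ⟨x, hx, e, _⟩ => hu (mem_image.2 ⟨x, hx, e⟩)
  have ag : ∀ s, ∀ T ∈ Λ.powerset, ∀ x ∈ Λ,
      per (M + 1) (upd (red (M + 1)) Λ s T) x = P144.ext Λ (fun _ => true) T x := by
    intro s T hT x hx
    rw [per_apply]
    unfold upd P144.ext
    rw [if_pos (mem_image_of_mem _ hx), if_pos hx, decide_eq_decide]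
    refine ⟨fun h => ?_, mem_image_of_mem _⟩
    obtain ⟨y, hy, e⟩ := mem_image.1 h
    rwa [← hi (mem_powerset.1 hT hy) hx e]
  have ae : ∀ s, ∀ T ∈ Λ.powerset, H (upd (red (M + 1)) Λ s T) =
      -β * energy J lam V (fun A => A ⊆ Λ) (P144.ext Λ (fun _ => true) T) := by
    intro s T hT
    rw [e2, en, en]
    congr 2
    refine sum_congr rfl fun x _ => sum_congr rfl fun A _ => ?_
    split_ifs with h
    · congr 1
      exact prod_congr rfl fun y hy => by rw [ag s T hT _ (h (mem_sh.2 (by simpa using hy)))]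
    · rfl
  have cs := cond_sum hi (fun s => Real.exp (H s)) (fun s => ∏ i, sp (per (M + 1) s (w i)))
    fun _ => Real.exp_pos _
  have e3 : ∀ s, (∑ T ∈ Λ.powerset, (∏ i, sp (per (M + 1) (upd (red (M + 1)) Λ s T) (w i))) *
      Real.exp (H (upd (red (M + 1)) Λ s T))) /
      (∑ T ∈ Λ.powerset, Real.exp (H (upd (red (M + 1)) Λ s T))) =
      gibbs J lam V β none Λ fun σ => ∏ i, sp (σ (w i)) := fun s => by
    unfold gibbs P144.expect
    congr 1
    · refine sum_congr rfl fun T hT => ?_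
      rw [ae s T hT, prod_congr rfl fun i _ => by rw [ag s T hT _ (hw i)]]
    · exact sum_congr rfl fun T hT => by rw [ae s T hT]
  simp only [e3, ← mul_sum] at cs
  have hZ : 0 < ∑ s, Real.exp (H s) := sum_pos (fun _ _ => Real.exp_pos _) univ_nonempty
  rw [eq_div_of_mul_eq hZ.ne' cs, gibbsT_eq hV]
  simp only [e1]
  exact ⟨div_nonneg (gin_pos hH hF) hZ.le, gin_mono hH hF hG⟩

theorem free_le_state (hV : IsPotential V) (hc : ∀ A, 0 ≤ cf J lam V A) (hβ : 0 ≤ β)
    {μ : Measure Config} (hμ : IsTorusState J lam V β μ) (Λ : Finset Site) {n : ℕ}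
    (w : Fin n → Site) (hw : ∀ i, w i ∈ Λ) :
    0 ≤ gibbs J lam V β none Λ (fun σ => ∏ i, sp (σ (w i))) ∧
      gibbs J lam V β none Λ (fun σ => ∏ i, sp (σ (w i))) ≤ ∫ σ, ∏ i, sp (σ (w i)) ∂μ := by
  have hi : ∀ᶠ M : ℕ in atTop, Set.InjOn (red (M + 1)) Λ := by
    filter_upwards [eventually_ge_atTop
      ((Λ ×ˢ Λ).sup fun p => (p.1.1 - p.2.1).natAbs + (p.1.2 - p.2.2).natAbs)] with M hM x hx y hy e
    have := (le_sup (f := fun p : Site × Site => (p.1.1 - p.2.1).natAbs + (p.1.2 - p.2.2).natAbs)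
      (mem_product.2 ⟨hx, hy⟩ : (x, y) ∈ Λ ×ˢ Λ)).trans hM
    simp only at this
    refine red_inj ?_ ?_ e <;> (rw [abs_lt]; push_cast; omega)
  obtain ⟨M, hM⟩ := hi.exists
  refine ⟨(free_le hV hc hβ Λ M hM w hw).1, ge_of_tendsto (state_local hμ (B := Λ) fun σ τ h => ?_)
    (hi.mono fun M hM => (free_le hV hc hβ Λ M hM w hw).2)⟩
  exact prod_congr rfl fun i _ => by rw [h _ (hw i)]

end Vale.Agent.P144M56
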