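import Vale.Agent.P144M56.Gks
import Vale.Agent.P144M56.Defs
import Vale.Agent.P144W.All
import Vale.Agent.P144W.Law13

/-!
Moments of the smeared spin field in a domain with free boundary condition.
-/

set_option linter.all false

namespace Vale.Agent.P144M56

open Filter Topology MeasureTheory Vale.Agent.P144 Vale.Agent.P144Z Vale.Agent.P144F58
  Vale.Agent.P144W

theorem pratt {α ι : Type*} [MeasurableSpace α] {ν : Measure α} {l : Filter ι}
    [l.IsCountablyGenerated] {g h : ι → α → ℝ} {h₀ : α → ℝ}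
    (hg : ∀ᶠ a in l, Integrable (g a) ν) (hh : ∀ᶠ a in l, Integrable (h a) ν)
    (h0 : Integrable h₀ ν) (hle : ∀ᶠ a in l, ∀ x, |g a x| ≤ h a x)
    (lg : ∀ᵐ x ∂ν, Tendsto (fun a => g a x) l (𝓝 0))
    (lh : ∀ᵐ x ∂ν, Tendsto (fun a => h a x) l (𝓝 (h₀ x)))
    (li : Tendsto (fun a => ∫ x, h a x ∂ν) l (𝓝 (∫ x, h₀ x ∂ν))) :
    Tendsto (fun a => ∫ x, g a x ∂ν) l (𝓝 0) := by
  have i1 : ∀ᶠ a in l, Integrable (fun x => min |g a x| |h₀ x|) ν :=
    hg.mono fun a ha => ha.abs.inf h0.abs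
  have i2 : ∀ᶠ a in l, Integrable (fun x => max (h₀ x - h a x) 0) ν :=
    hh.mono fun a ha => (h0.sub ha).pos_part
  have t1 := tendsto_integral_filter_of_dominated_convergence (μ := ν) (l := l)
    (F := fun a x => min |g a x| |h₀ x|) (f := fun _ => 0) (fun x => |h₀ x|)
    (i1.mono fun a ha => ha.1)
    (Eventually.of_forall fun a => Eventually.of_forall fun x => by
      rw [Real.norm_eq_abs, abs_of_nonneg (le_min (abs_nonneg _) (abs_nonneg _))]
      exact min_le_right _ _) h0.abs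
    (lg.mono fun x hx => by simpa using hx.abs.min (tendsto_const_nhds (x := |h₀ x|)))
  have t2 := tendsto_integral_filter_of_dominated_convergence (μ := ν) (l := l)
    (F := fun a x => max (h₀ x - h a x) 0) (f := fun _ => 0) (fun x => |h₀ x|)
    (i2.mono fun a ha => ha.1)
    (hle.mono fun a ha => Eventually.of_forall fun x => by
      rw [Real.norm_eq_abs, abs_of_nonneg (le_max_right _ _)]
      exact max_le (by linarith [le_abs_self (h₀ x), abs_nonneg (g a x), ha x]) (abs_nonneg _))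
    h0.abs (lh.mono fun x hx => by
      simpa using ((tendsto_const_nhds (x := h₀ x)).sub hx).max (tendsto_const_nhds (x := (0 : ℝ))))
  have t3 := (t1.add (li.sub_const (∫ x, h₀ x ∂ν))).add t2
  simp only [integral_zero, sub_self, add_zero] at t3
  refine squeeze_zero_norm' ?_ t3
  filter_upwards [hh, hle, i1, i2] with a a1 a2 a3 a4
  have a5 : Integrable (fun x => h a x - h₀ x) ν := a1.sub h0
  have a6 : Integrable (fun x => min |g a x| |h₀ x| + (h a x - h₀ x)) ν := a3.add a5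
  have a7 : Integrable (fun x => min |g a x| |h₀ x| + (h a x - h₀ x) + max (h₀ x - h a x) 0) ν :=
    a6.add a4
  rw [← integral_sub a1 h0, ← integral_add a3 a5, ← integral_add a6 a4]
  refine norm_integral_le_of_norm_le a7 (Eventually.of_forall fun x => ?_)
  have := a2 x
  have := le_max_left (h₀ x - h a x) 0
  have := le_max_right (h₀ x - h a x) 0
  have := le_abs_self (h₀ x)
  rw [Real.norm_eq_abs]
  rcases le_total (h₀ x) (h a x) with k | k <;> rcases min_cases |g a x| |h₀ x| with m | m <;>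
    rw [m.1] <;> linarith

theorem expect_eq (β : ℝ) (H : Config → ℝ) (Λ : Finset Site) (η : Config) :
    ∃ p : Finset Site → ℝ, (∀ T, 0 ≤ p T) ∧ ∑ T ∈ Λ.powerset, p T = 1 ∧
      ∀ F, expect β H Λ η F = ∑ T ∈ Λ.powerset, p T * F (P144.ext Λ η T) := by
  have hZ : 0 < ∑ T ∈ Λ.powerset, Real.exp (-β * H (P144.ext Λ η T)) :=
    Finset.sum_pos (fun _ _ => Real.exp_pos _) ⟨∅, by simp⟩
  refine ⟨fun T => Real.exp (-β * H (P144.ext Λ η T)) / _, fun T => div_nonneg (Real.exp_pos _).le hZ.le,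
    by rw [← Finset.sum_div, div_self hZ.ne'], fun F => ?_⟩
  unfold expect
  rw [Finset.sum_div]
  exact Finset.sum_congr rfl fun T _ => by ring

theorem fub_expect (β : ℝ) (H : Config → ℝ) (Λ : Finset Site) (η : Config) (a : ℝ) {n : ℕ}
    {f : Fin n → ℂ → ℝ} (hf : ∀ i, Test (f i)) :
    Integrable (fun x : Fin n → ℂ => (∏ i, f i (x i)) *
      expect β H Λ η fun σ => ∏ i, ph a (x i) σ) ∧
    expect β H Λ η (fun σ => ∏ i, smear a (f i) σ) =
      ∫ x : Fin n → ℂ, (∏ i, f i (x i)) * expect β H Λ η fun σ => ∏ i, ph a (x i) σ := by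
  obtain ⟨p, -, -, h⟩ := expect_eq β H Λ η
  have hi : ∀ σ, Integrable fun x : Fin n → ℂ => ∏ i, f i (x i) * ph a (x i) σ := fun σ =>
    Integrable.fintype_prod (f := fun i z => f i z * ph a z σ) fun i => C13.smear_int (hf i) a σ
  have e : ∀ x : Fin n → ℂ, ((∏ i, f i (x i)) * expect β H Λ η fun σ => ∏ i, ph a (x i) σ) =
      ∑ T ∈ Λ.powerset, p T * ∏ i, f i (x i) * ph a (x i) (P144.ext Λ η T) := fun x => by
    rw [h, Finset.mul_sum]
    exact Finset.sum_congr rfl fun T _ => by rw [Finset.prod_mul_distrib]; ring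
  simp only [e]
  refine ⟨integrable_finsetSum _ fun T _ => (hi _).const_mul _, ?_⟩
  rw [integral_finsetSum _ fun T _ => (hi _).const_mul _, h]
  refine Finset.sum_congr rfl fun T _ => ?_
  rw [integral_const_mul, integral_fintype_prod_volume_eq_prod
    (f := fun i z => f i z * ph a z (P144.ext Λ η T))]
  rfl

theorem fub_test {μ : Measure Config} (hF : Fd μ ph) {a : ℝ} (ha : 0 < a) {n : ℕ}
    {f : Fin n → ℂ → ℝ} (hf : ∀ i, Test (f i)) :
    Integrable (fun x : Fin n → ℂ => (∏ i, f i (x i)) * cr μ ph a x) ∧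
    ∫ σ, ∏ i, smear a (f i) σ ∂μ = ∫ x : Fin n → ℂ, (∏ i, f i (x i)) * cr μ ph a x := by
  obtain ⟨B, -, R, hR, g, hg, e⟩ := exists_tf f hf
  obtain ⟨h1, h2⟩ := ((fub _ μ ph hF a ha).2 n).2 0 R g hg
  have e1 : ∀ x : Fin n → ℂ, (∏ i, f i (x i)) * cr μ ph a x =
      B ^ n * ((∏ i, g i (x i)) * cr μ ph a x) := by
    intro x
    simp only [e, Finset.prod_mul_distrib, Finset.prod_const, Finset.card_univ, Fintype.card_fin,
      mul_assoc]
  have e2 : ∀ ω, ∏ i, smear a (f i) ω = B ^ n * ∏ i, sm ph a (g i) ω := by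
    intro ω
    have e3 : ∀ i, smear a (f i) ω = B * sm ph a (g i) ω := by
      intro i
      simp only [sm, smear, ph, e, mul_assoc, integral_const_mul]
    simp only [e3, Finset.prod_mul_distrib, Finset.prod_const, Finset.card_univ, Fintype.card_fin]
  simp only [e1, e2, integral_const_mul, h2]
  exact ⟨h1.const_mul _, trivial⟩

theorem test_abs {f : ℂ → ℝ} (hf : Test f) : Test fun x => |f x| := by
  obtain ⟨hm, ⟨B, hB⟩, hs⟩ := hf
  exact ⟨hm.abs, ⟨B, fun x => by simpa using hB x⟩, hs.subset fun x hx h => hx (by simp [h])⟩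

theorem inside {D : Set ℂ} (ho : IsOpen D) (hb : Bornology.IsBounded D) {f : ℂ → ℝ}
    (h : tsupport f ⊆ D) : ∀ᶠ a in 𝓝[>] (0 : ℝ), ∀ z, f z ≠ 0 → fl a z ∈ disc D a := by
  have hK : IsCompact (tsupport f) :=
    Metric.isCompact_of_isClosed_isBounded (isClosed_tsupport f) (hb.subset h)
  obtain ⟨δ, hδ, hs⟩ := hK.exists_cthickening_subset_open ho h
  filter_upwards [self_mem_nhdsWithin, nhdsWithin_le_nhds (gt_mem_nhds (half_pos hδ))] with a ha h2 z hz
  rw [mem_disc hb ha]
  refine hs (Metric.mem_cthickening_of_dist_le _ z _ _ (subset_tsupport f hz) ?_)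
  rw [dist_comm, dist_eq_norm]
  have : a < δ / 2 := h2
  linarith [near_fl ha z]

variable {J lam β : ℝ} {V : Finset Site → ℝ}

theorem dom_bd (hV : IsPotential V) (hc : ∀ A, 0 ≤ U1.cf J lam V A) (hβ : 0 ≤ β)
    {μ : Measure Config} (hμ : IsTorusState J lam V β μ) {D : Set ℂ} (ho : IsOpen D)
    (hb : Bornology.IsBounded D) {n : ℕ} {f : Fin n → ℂ → ℝ} (h : ∀ i, tsupport (f i) ⊆ D) :
    ∀ᶠ a in 𝓝[>] (0 : ℝ), ∀ x : Fin n → ℂ,
      |(∏ i, f i (x i)) * inDom J lam V β D none a fun σ => ∏ i, ph a (x i) σ| ≤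
        (∏ i, |f i (x i)|) * cr μ ph a x := by
  filter_upwards [self_mem_nhdsWithin, eventually_all.2 fun i => inside ho hb (h i)] with a ha h x
  rw [abs_mul, Finset.abs_prod]
  by_cases h0 : ∃ i, f i (x i) = 0
  · obtain ⟨i, hi⟩ := h0
    rw [Finset.prod_eq_zero (Finset.mem_univ i) (by simp [hi]), zero_mul, zero_mul]
  refine mul_le_mul_of_nonneg_left ?_ (by positivity)
  obtain ⟨h1, h2⟩ := free_le_state hV hc hβ hμ (disc D a) (fun i => fl a (x i))
    fun i => h i _ fun e => h0 ⟨i, e⟩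
  have ha' : 0 < a := ha
  have e : (inDom J lam V β D none a fun σ => ∏ i, ph a (x i) σ) = (a ^ (-(1 / 8) : ℝ)) ^ n *
      gibbs J lam V β none (disc D a) fun σ => ∏ i, sp (σ (fl a (x i))) := by
    simp only [inDom, gibbs, expect, Option.map_none, ph, Finset.prod_mul_distrib,
      Finset.prod_const, Finset.card_univ, Fintype.card_fin, mul_assoc, ← Finset.mul_sum,
      mul_div_assoc]
  rw [e, cr_pow, abs_of_nonneg (by positivity)]
  exact mul_le_mul_of_nonneg_left h2 (by positivity)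

end Vale.Agent.P144M56
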